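import Vale.Agent.P085.Defs

/-!
P085: four elements generate, from the encoding, target, carrier and step modules.
-/

namespace VP085

open VP086

theorem core_of (hE : EncodeSpec) (hT : TargetSpec) (hC : CarrierSpec) (hS : StepSpec) :
    CoreSpec := by
  intro A _ H _ _ S C hsep
  obtain ⟨g, hg⟩ := hE A H S C
  obtain ⟨T, hTc, hTs, hTgen⟩ := hT A H S C hsep
  have hunits : ∀ s : Set A, Set.range g ⊆ s → C.units ⊆ (l2Closure S.toStd s : Set A) :=
    fun s hs x hx => l2Closure_mono S.toStd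
      (fun y hy => adjoin_le_l2Closure S.toStd s (StarAlgebra.subset_adjoin ℂ s (hs hy))) (hg hx)
  have step : ∀ x ∈ T, ∀ v : unitary A, ∀ δ > 0, ∀ ε > 0, ∃ v' : unitary A,
      ‖S.ι ((v' : A) - v)‖ < δ ∧
      ∃ a ∈ StarAlgebra.adjoin ℂ (Set.range g ∪ {(v' : A)}), ‖S.ι (a - x)‖ < ε := by
    intro x hx v δ hδ ε hε
    obtain ⟨d, η, hη, hstep⟩ := hS (min (δ / 2) (ε / 3)) (by positivity)
    classical
    obtain ⟨κ, _, _, c, hc, hw⟩ := hC A H S C {(v : A), star (v : A), x} d η hη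
    have hw' : WickNear S.toStd ({(v : A), star (v : A), x} : Set A) c d η := by
      simpa using hw
    obtain ⟨w, v', hv', y, hy, hyq⟩ :=
      hstep A H S.toStd v x (hTs x hx) κ c (fun w i => (hc w i).1) hw'
    refine ⟨v', (hv'.trans (min_le_left _ _)).trans_lt (by linarith), ?_⟩
    have hy' : y ∈ l2Closure S.toStd (Set.range g ∪ {(v' : A)}) := by
      refine l2Closure_mono S.toStd ?_ hy
      rintro z (⟨i, rfl⟩ | rfl)
      · exact StarAlgebra.adjoin_le (hunits _ Set.subset_union_left) (hc w i).2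
      · exact adjoin_le_l2Closure S.toStd _ (StarAlgebra.subset_adjoin ℂ _ (Or.inr rfl))
    obtain ⟨-, ⟨a, ha, rfl⟩, had⟩ := Metric.mem_closure_iff.1 hy' (ε / 3) (by positivity)
    refine ⟨a, ha, ?_⟩
    rw [dist_comm, dist_eq_norm, ← map_sub] at had
    calc ‖S.ι (a - x)‖ ≤ ‖S.ι (a - y)‖ + ‖S.ι (y - x)‖ := by
          rw [← sub_add_sub_cancel a y x, map_add]; exact norm_add_le _ _
      _ < ε := by
          have := hyq.trans (min_le_right _ _)
          linarith
  obtain ⟨v, -, hv⟩ := exists_unitary_targets S.toStd S.faithful S.complete (Set.range g) T hTc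
    step 1 one_pos
  refine ⟨Fin.snoc g (v : A), fun x => ?_⟩
  have hr : Set.range g ∪ {(v : A)} ⊆ Set.range (Fin.snoc g (v : A) : Fin 4 → A) := by
    rintro z (⟨i, rfl⟩ | rfl)
    · exact ⟨i.castSucc, Fin.snoc_castSucc _ _ _⟩
    · exact ⟨Fin.last 3, Fin.snoc_last _ _⟩
  refine l2Closure_mono S.toStd (s := Set.range g ∪ {(v : A)}) (fun y hy => adjoin_le_l2Closure _ _
    (StarAlgebra.subset_adjoin ℂ _ (hr hy))) ?_
  exact hTgen _ (hunits _ Set.subset_union_left) (fun q hq => hv q hq) x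

theorem answer_of (hE : EncodeSpec) (hT : TargetSpec) (hC : CarrierSpec) (hS : StepSpec)
    (hK : CornerSpec) (hB : BridgeSpec) : Lit.Target :=
  hB (hK (core_of hE hT hC hS))

end VP085
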