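import Vale.Agent.P086.System

/-!
P085: the Baire category argument. If each target can be approximated from `R` and some unitary
arbitrarily close to any given one, then for densely many unitaries `v` every target lies in the
two-norm closure of the algebra generated by `R` and `v`.
-/

open scoped InnerProductSpace
open Filter Topology

namespace VP085

open VP086

variable {A : Type} [CStarAlgebra A] {H : Type} [NormedAddCommGroup H] [InnerProductSpace ℂ H]
  (S : Std A H)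

lemma norm_ι_star (x : A) : ‖S.ι (star x)‖ = ‖S.ι x‖ := by
  have e : ⟪S.ι (star x), S.ι (star x)⟫_ℂ = ⟪S.ι x, S.ι x⟫_ℂ := by
    rw [S.inner_ι (star x) (star x), S.inner_ι x x, star_star, S.tau_comm]
  simp only [inner_self_eq_norm_sq_to_K] at e
  have : ‖S.ι (star x)‖ ^ 2 = ‖S.ι x‖ ^ 2 := by exact_mod_cast e
  exact (pow_left_inj₀ (norm_nonneg _) (norm_nonneg _) two_ne_zero).1 this

lemma norm_ι_mul_sub_le (a b a' b' : A) :
    ‖S.ι (a * b - a' * b')‖ ≤ ‖a‖ * ‖S.ι (b - b')‖ + ‖b'‖ * ‖S.ι (a - a')‖ := by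
  rw [show a * b - a' * b' = a * (b - b') + (a - a') * b' by noncomm_ring, map_add]
  exact (norm_add_le _ _).trans (add_le_add (S.left_le _ _) (S.right_le _ _))

/-- The elements of `A` in the two-norm closure of the algebra generated by `s`. -/
noncomputable def l2Closure (s : Set A) : StarSubalgebra ℂ A where
  carrier := {x | S.ι x ∈ closure (S.ι '' (StarAlgebra.adjoin ℂ s : Set A))}
  mul_mem' := by
    intro x y hx hy
    have h1 : ∀ p ∈ (StarAlgebra.adjoin ℂ s : Set A),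
        S.ι (p * y) ∈ closure (S.ι '' (StarAlgebra.adjoin ℂ s : Set A)) := by
      intro p hp
      have hy : S.ι y ∈ closure (S.ι '' (StarAlgebra.adjoin ℂ s : Set A)) := hy
      rw [Metric.mem_closure_iff] at hy ⊢
      intro ε hε
      obtain ⟨-, ⟨q, hq, rfl⟩, hd⟩ := hy (ε / (‖p‖ + 1)) (by positivity)
      refine ⟨_, ⟨p * q, mul_mem hp hq, rfl⟩, ?_⟩
      rw [dist_eq_norm, ← map_sub] at hd ⊢
      rw [← mul_sub]
      rw [lt_div_iff₀ (by positivity)] at hd
      nlinarith [S.left_le p (y - q), norm_nonneg (S.ι (y - q)), norm_nonneg p]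
    show S.ι (x * y) ∈ closure _
    rw [← closure_closure, Metric.mem_closure_iff]
    intro ε hε
    obtain ⟨-, ⟨p, hp, rfl⟩, hd⟩ := Metric.mem_closure_iff.1 hx (ε / (‖y‖ + 1)) (by positivity)
    refine ⟨_, h1 p hp, ?_⟩
    rw [dist_eq_norm, ← map_sub] at hd ⊢
    rw [← sub_mul]
    rw [lt_div_iff₀ (by positivity)] at hd
    nlinarith [S.right_le y (x - p), norm_nonneg (S.ι (x - p)), norm_nonneg y]
  add_mem' := by
    intro x y hx hy
    show S.ι (x + y) ∈ closure _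
    rw [map_add]
    exact map_mem_closure₂ continuous_add hx hy
      (by rintro - ⟨p, hp, rfl⟩ - ⟨q, hq, rfl⟩; exact ⟨p + q, add_mem hp hq, map_add _ _ _⟩)
  algebraMap_mem' := fun r => subset_closure ⟨_, algebraMap_mem _ r, rfl⟩
  star_mem' := by
    intro x hx
    show S.ι (star x) ∈ closure _
    refine Metric.mem_closure_iff.2 fun ε hε => ?_
    obtain ⟨-, ⟨p, hp, rfl⟩, hd⟩ := Metric.mem_closure_iff.1 hx ε hε
    refine ⟨_, ⟨star p, star_mem hp, rfl⟩, ?_⟩
    rwa [dist_eq_norm, ← map_sub, ← star_sub, norm_ι_star, map_sub, ← dist_eq_norm]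

lemma mem_l2Closure {s : Set A} {x : A} : x ∈ l2Closure S s ↔
    S.ι x ∈ closure (S.ι '' (StarAlgebra.adjoin ℂ s : Set A)) := Iff.rfl

lemma adjoin_le_l2Closure (s : Set A) : StarAlgebra.adjoin ℂ s ≤ l2Closure S s :=
  fun _ hx => subset_closure ⟨_, hx, rfl⟩

/-- The two-norm closure is closed under two-norm limits. -/
lemma mem_l2Closure_of_forall {s : Set A} {x : A}
    (h : ∀ ε > 0, ∃ a ∈ l2Closure S s, ‖S.ι (a - x)‖ < ε) : x ∈ l2Closure S s := by
  rw [mem_l2Closure, ← closure_closure, Metric.mem_closure_iff]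
  intro ε hε
  obtain ⟨a, ha, hd⟩ := h ε hε
  exact ⟨_, ha, by rwa [dist_comm, dist_eq_norm, ← map_sub]⟩

lemma isClosed_l2Closure (s : Set A) : IsClosed (l2Closure S s : Set A) := by
  have : Continuous S.ι := AddMonoidHomClass.continuous_of_bound S.ι 1 fun x => by
    simpa [S.norm_one] using S.left_le x 1
  exact isClosed_closure.preimage this

/-- `l2Closure` is the smallest such algebra. -/
lemma l2Closure_mono {s t : Set A} (h : ∀ x ∈ s, x ∈ l2Closure S t) :
    l2Closure S s ≤ l2Closure S t := by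
  intro x hx
  refine mem_l2Closure_of_forall S fun ε hε => ?_
  obtain ⟨-, ⟨p, hp, rfl⟩, hd⟩ := Metric.mem_closure_iff.1 hx ε hε
  exact ⟨p, StarAlgebra.adjoin_le h hp, by rwa [map_sub, ← dist_eq_norm, dist_comm]⟩

/-- The unitaries as a subset of `H`. -/
def UU : Set H := Set.range fun v : unitary A => S.ι (v : A)

section Baire

variable (faithful : ∀ x, S.ι x = 0 → x = 0)
  (complete : ∀ x : ℕ → A, (∀ m, ‖x m‖ ≤ 1) → CauchySeq (fun m => S.ι (x m)) →
    ∃ a : A, ‖a‖ ≤ 1 ∧ Tendsto (fun m => S.ι (x m)) atTop (𝓝 (S.ι a)))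

lemma norm_unitary_le (v : unitary A) : ‖(v : A)‖ ≤ 1 := by
  rcases subsingleton_or_nontrivial A with h | h
  · simp [Subsingleton.elim (v : A) 0]
  · exact (CStarRing.norm_coe_unitary v).le

include faithful complete in
/-- A two-norm limit of unitaries is a unitary. -/
theorem isComplete_UU : IsComplete (UU S) := by
  rw [← completeSpace_coe_iff_isComplete]
  refine Metric.complete_of_cauchySeq_tendsto fun x hx => ?_
  choose v hv using fun m => (x m).2
  have hc : CauchySeq fun m => S.ι (v m : A) := by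
    simp only [hv]
    exact uniformContinuous_subtype_val.comp_cauchySeq hx
  obtain ⟨a, ha, ht⟩ := complete _ (fun m => norm_unitary_le (v m)) hc
  have h0 : Tendsto (fun m => ‖S.ι ((v m : A) - a)‖) atTop (𝓝 0) := by
    simp only [map_sub]
    exact tendsto_iff_norm_sub_tendsto_zero.1 ht
  have one : ∀ b c : A, ‖b‖ ≤ 1 → ∀ u : ℕ → A, ∀ w : ℕ → A, (∀ m, ‖u m‖ ≤ 1) →
      Tendsto (fun m => ‖S.ι (u m - c)‖) atTop (𝓝 0) →
      Tendsto (fun m => ‖S.ι (w m - b)‖) atTop (𝓝 0) →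
      (∀ m, u m * w m = 1) → c * b = 1 := by
    intro b c hb u w hu hu0 hw0 huw
    have hz : ‖S.ι (1 - c * b)‖ = 0 := by
      refine tendsto_nhds_unique (f := fun _ : ℕ => ‖S.ι (1 - c * b)‖) (l := atTop)
        tendsto_const_nhds (squeeze_zero (fun _ => norm_nonneg _)
          (g := fun m => ‖S.ι (w m - b)‖ + ‖S.ι (u m - c)‖) (fun m => ?_)
          (by simpa using hw0.add hu0))
      rw [← huw m]
      exact (norm_ι_mul_sub_le S _ _ _ _).trans (add_le_add
        (mul_le_of_le_one_left (norm_nonneg _) (hu m))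
        (mul_le_of_le_one_left (norm_nonneg _) hb))
    exact (sub_eq_zero.1 (faithful _ (norm_eq_zero.1 hz))).symm
  have h0s : Tendsto (fun m => ‖S.ι (star (v m : A) - star a)‖) atTop (𝓝 0) := by
    simpa only [← star_sub, norm_ι_star] using h0
  have hs : ∀ m, ‖star (v m : A)‖ ≤ 1 := fun m => by rw [norm_star]; exact norm_unitary_le _
  have u1 := one a (star a) ha (fun m => star (v m : A)) (fun m => (v m : A)) hs h0s h0
    (fun m => Unitary.coe_star_mul_self (v m))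
  have u2 := one (star a) a (by rwa [norm_star]) (fun m => (v m : A))
    (fun m => star (v m : A)) (fun m => norm_unitary_le _) h0 h0s
    (fun m => Unitary.coe_mul_star_self (v m))
  refine ⟨⟨S.ι a, ⟨a, u1, u2⟩, rfl⟩, ?_⟩
  rw [tendsto_subtype_rng]
  simpa only [hv] using ht

/-- Functions of a unitary given by expressions over `R`. -/
structure IsExpr (R : Set A) (f : unitary A → A) : Prop where
  mem : ∀ w : unitary A, f w ∈ StarAlgebra.adjoin ℂ (R ∪ {(w : A)})
  bound : ∃ C : ℝ, 0 ≤ C ∧ ∀ w w' : unitary A,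
    ‖f w‖ ≤ C ∧ ‖S.ι (f w - f w')‖ ≤ C * ‖S.ι ((w : A) - w')‖

lemma exists_expr (R : Set A) (v : unitary A) {a : A}
    (ha : a ∈ StarAlgebra.adjoin ℂ (R ∪ {(v : A)})) :
    ∃ f, IsExpr S R f ∧ f v = a := by
  induction ha using StarAlgebra.adjoin_induction with
  | mem x hx =>
    rcases hx with hx | hx
    · exact ⟨fun _ => x, ⟨fun w => StarAlgebra.subset_adjoin ℂ _ (Or.inl hx),
        ‖x‖, norm_nonneg _, fun w w' => ⟨le_rfl, by simpa using mul_nonneg (norm_nonneg x) (norm_nonneg _)⟩⟩, rfl⟩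
    · exact ⟨fun w => (w : A), ⟨fun w => StarAlgebra.subset_adjoin ℂ _ (Or.inr rfl),
        1, zero_le_one, fun w w' => ⟨norm_unitary_le w, by simp⟩⟩, hx.symm⟩
  | algebraMap r =>
    exact ⟨fun _ => algebraMap ℂ A r, ⟨fun w => algebraMap_mem _ r, ‖algebraMap ℂ A r‖,
      norm_nonneg _, fun w w' => ⟨le_rfl, by
        simpa using mul_nonneg (norm_nonneg (algebraMap ℂ A r)) (norm_nonneg _)⟩⟩, rfl⟩
  | add x y _ _ hx hy =>
    obtain ⟨f, ⟨hf, C, hC, hfb⟩, rfl⟩ := hx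
    obtain ⟨g, ⟨hg, D, hD, hgb⟩, rfl⟩ := hy
    refine ⟨fun w => f w + g w, ⟨fun w => add_mem (hf w) (hg w), C + D, add_nonneg hC hD,
      fun w w' => ⟨(norm_add_le _ _).trans (add_le_add (hfb w w').1 (hgb w w').1), ?_⟩⟩, rfl⟩
    rw [add_sub_add_comm, map_add, add_mul]
    exact (norm_add_le _ _).trans (add_le_add (hfb w w').2 (hgb w w').2)
  | mul x y _ _ hx hy =>
    obtain ⟨f, ⟨hf, C, hC, hfb⟩, rfl⟩ := hx
    obtain ⟨g, ⟨hg, D, hD, hgb⟩, rfl⟩ := hy
    have hCD := mul_nonneg hC hD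
    refine ⟨fun w => f w * g w, ⟨fun w => mul_mem (hf w) (hg w), 2 * (C * D), by positivity,
      fun w w' => ⟨(norm_mul_le _ _).trans ?_, (norm_ι_mul_sub_le S _ _ _ _).trans ?_⟩⟩, rfl⟩
    · nlinarith [(hfb w w').1, (hgb w w').1, norm_nonneg (f w), norm_nonneg (g w)]
    · have t1 : ‖f w‖ * ‖S.ι (g w - g w')‖ ≤ C * (D * ‖S.ι ((w : A) - w')‖) :=
        mul_le_mul (hfb w w').1 (hgb w w').2 (norm_nonneg _) hC
      have t2 : ‖g w'‖ * ‖S.ι (f w - f w')‖ ≤ D * (C * ‖S.ι ((w : A) - w')‖) :=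
        mul_le_mul (hgb w' w).1 (hfb w w').2 (norm_nonneg _) hD
      linarith
  | star x _ hx =>
    obtain ⟨f, ⟨hf, C, hC, hfb⟩, rfl⟩ := hx
    exact ⟨fun w => star (f w), ⟨fun w => star_mem (hf w), C, hC,
      fun w w' => ⟨by rw [norm_star]; exact (hfb w w').1,
        by rw [← star_sub, norm_ι_star]; exact (hfb w w').2⟩⟩, rfl⟩

include faithful complete in
/-- Baire: near every unitary there is one from which, with `R`, every target is reached. -/
theorem exists_unitary_targets (R T : Set A) (hT : T.Countable)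
    (step : ∀ x ∈ T, ∀ v : unitary A, ∀ δ > 0, ∀ ε > 0, ∃ v' : unitary A,
      ‖S.ι ((v' : A) - v)‖ < δ ∧
      ∃ a ∈ StarAlgebra.adjoin ℂ (R ∪ {(v' : A)}), ‖S.ι (a - x)‖ < ε)
    (v₀ : unitary A) {δ : ℝ} (hδ : 0 < δ) :
    ∃ v : unitary A, ‖S.ι ((v : A) - v₀)‖ < δ ∧
      ∀ x ∈ T, x ∈ l2Closure S (R ∪ {(v : A)}) := by
  have : CompleteSpace (UU S) := (isComplete_UU S faithful complete).completeSpace_coe
  have hinj : ∀ v v' : unitary A, S.ι (v : A) = S.ι (v' : A) → v = v' := fun v v' h => by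
    refine Subtype.ext (sub_eq_zero.1 (faithful _ ?_))
    rw [map_sub, h, sub_self]
  set O : A × ℕ → Set (UU S) := fun p => {z | ∃ v : unitary A, S.ι (v : A) = z ∧
    ∃ a ∈ StarAlgebra.adjoin ℂ (R ∪ {(v : A)}), ‖S.ι (a - p.1)‖ < 1 / ((p.2 : ℝ) + 1)}
  have ho : ∀ p ∈ T ×ˢ (Set.univ : Set ℕ), IsOpen (O p) := by
    intro p _
    rw [Metric.isOpen_iff]
    rintro z ⟨v, hvz, a, ha, hlt⟩
    obtain ⟨f, ⟨hf, C, hC, hfb⟩, rfl⟩ := exists_expr S R v ha
    set η := 1 / ((p.2 : ℝ) + 1) - ‖S.ι (f v - p.1)‖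
    have hη : 0 < η := sub_pos.2 hlt
    refine ⟨η / (C + 1), by positivity, ?_⟩
    rintro ⟨z', v', rfl⟩ hz'
    refine ⟨v', rfl, f v', hf v', ?_⟩
    rw [Metric.mem_ball, Subtype.dist_eq, ← hvz, dist_eq_norm, ← map_sub,
      lt_div_iff₀ (by positivity)] at hz'
    calc ‖S.ι (f v' - p.1)‖ ≤ ‖S.ι (f v' - f v)‖ + ‖S.ι (f v - p.1)‖ := by
          rw [← sub_add_sub_cancel (f v') (f v) p.1, map_add]; exact norm_add_le _ _
      _ < η + ‖S.ι (f v - p.1)‖ := by
          nlinarith [(hfb v' v).2, norm_nonneg (S.ι ((v' : A) - v))]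
      _ = _ := sub_add_cancel _ _
  have hd : ∀ p ∈ T ×ˢ (Set.univ : Set ℕ), Dense (O p) := by
    rintro p ⟨hp, -⟩
    rw [Metric.dense_iff]
    rintro ⟨z, v, rfl⟩ r hr
    obtain ⟨v', hv', a, ha, hlt⟩ := step p.1 hp v r hr (1 / ((p.2 : ℝ) + 1)) (by positivity)
    exact ⟨⟨_, v', rfl⟩, by rw [Metric.mem_ball, Subtype.dist_eq, dist_eq_norm, ← map_sub]; exact hv',
      v', rfl, a, ha, hlt⟩
  have key : Dense (⋂ p ∈ T ×ˢ (Set.univ : Set ℕ), O p) :=
    dense_biInter_of_isOpen ho (hT.prod Set.countable_univ) hd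
  obtain ⟨⟨z, v, rfl⟩, hball, hmem⟩ := Metric.dense_iff.1 key ⟨_, v₀, rfl⟩ δ hδ
  refine ⟨v, by rwa [Metric.mem_ball, Subtype.dist_eq, dist_eq_norm, ← map_sub] at hball, ?_⟩
  intro x hx
  refine mem_l2Closure_of_forall S fun ε hε => ?_
  obtain ⟨m, hm⟩ := exists_nat_one_div_lt hε
  obtain ⟨v', hv', a, ha, hlt⟩ := Set.mem_iInter₂.1 hmem (x, m) ⟨hx, trivial⟩
  obtain rfl := hinj v' v hv'
  exact ⟨a, adjoin_le_l2Closure S _ ha, hlt.trans hm⟩

end Baire

/-- The averaging step: if a family in `B` conjugated by `w` stays in `B` and scalarises `w*` to a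
nonzero number, then `w` is in `B`. -/
theorem mem_l2Closure_of_average {s : Set A} (w : unitary A) {c : ℂ} (hc : c ≠ 0)
    (h : ∀ ε > 0, ∃ (n : ℕ) (U V : Fin n → A), (∀ i, V i ∈ l2Closure S s) ∧
      (∀ i, (w : A) * U i * star (w : A) ∈ l2Closure S s) ∧
      ‖S.ι ((n : ℂ)⁻¹ • (∑ i, U i * star (w : A) * V i) - c • 1)‖ < ε) :
    (w : A) ∈ l2Closure S s := by
  suffices hcw : c • (w : A) ∈ l2Closure S s by
    simpa [smul_smul, inv_mul_cancel₀ hc] using SMulMemClass.smul_mem (c⁻¹ : ℂ) hcw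
  refine mem_l2Closure_of_forall S fun ε hε => ?_
  obtain ⟨n, U, V, hV, hU, hlt⟩ := h ε hε
  refine ⟨(n : ℂ)⁻¹ • ∑ i, (w : A) * U i * star (w : A) * V i,
    SMulMemClass.smul_mem _ (sum_mem fun i _ => mul_mem (hU i) (hV i)), ?_⟩
  have e : (n : ℂ)⁻¹ • ∑ i, (w : A) * U i * star (w : A) * V i - c • (w : A) =
      (w : A) * ((n : ℂ)⁻¹ • (∑ i, U i * star (w : A) * V i) - c • 1) := by
    simp [mul_sub, Finset.mul_sum, mul_assoc]
  rw [e]
  exact ((S.left_le _ _).trans (mul_le_of_le_one_left (norm_nonneg _) (norm_unitary_le w))).trans_lt hlt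

end VP085
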