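import Vale.Agent.P086.System
import Vale.Agent.P085.Baire
import Vale.Agent.P085.Lit.Statement

/-!
P085 (generator problem for II₁ factors): interfaces. See notes/helper6/P085/BLUEPRINT.md.
-/

open scoped InnerProductSpace
open Filter Topology

namespace VP085

open VP086

/-- A tracial algebra with faithful trace whose unit ball is complete for the two-norm. -/
structure Fac (A : Type) [CStarAlgebra A] (H : Type) [NormedAddCommGroup H]
    [InnerProductSpace ℂ H] extends Std A H where
  faithful : ∀ x, toStd.ι x = 0 → x = 0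
  complete : ∀ x : ℕ → A, (∀ m, ‖x m‖ ≤ 1) → CauchySeq (fun m => toStd.ι (x m)) →
    ∃ a : A, ‖a‖ ≤ 1 ∧ Tendsto (fun m => toStd.ι (x m)) atTop (𝓝 (toStd.ι a))

variable {A : Type} [CStarAlgebra A] {H : Type} [NormedAddCommGroup H] [InnerProductSpace ℂ H]

/-- A countable set is dense for the two-norm. -/
def Fac.SepTwo (S : Fac A H) : Prop :=
  ∃ D : ℕ → A, ∀ x : A, ∀ ε > (0 : ℝ), ∃ i, ‖S.ι (D i - x)‖ < ε

/-- A semicircular element. -/
def Semicircular (S : Std A H) (q : A) : Prop :=
  IsSelfAdjoint q ∧ ‖q‖ ≤ 2 ∧ ∀ m : ℕ, S.τ (q ^ (m + 1)) =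
    ∑ i ∈ Finset.range m, S.τ (q ^ i) * S.τ (q ^ (m - 1 - i))

/-- One step of averaging over a system of matrix units. -/
noncomputable def twirl {n : ℕ} (e : Fin n → Fin n → A) (x : A) : A :=
  (n : ℂ)⁻¹ • ∑ i, ∑ j, e i j * x * e j i

/-- Averaging over the first `K` systems. -/
noncomputable def avgTo (n : ℕ → ℕ) (e : ∀ K, Fin (n K) → Fin (n K) → A) : ℕ → A → A
  | 0, x => x
  | K + 1, x => twirl (e K) (avgTo n e K x)

/-- Commuting systems of matrix units with trivial relative commutant, in averaged form. -/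
structure Chain (S : Fac A H) where
  n : ℕ → ℕ
  four_le : ∀ K, 4 ≤ n K
  e : ∀ K, Fin (n K) → Fin (n K) → A
  star_e : ∀ K i j, star (e K i j) = e K j i
  mul_e : ∀ K i j k l, e K i j * e K k l = if j = k then e K i l else 0
  sum_e : ∀ K, ∑ i, e K i i = 1
  comm : ∀ K K', K ≠ K' → ∀ i j k l, e K i j * e K' k l = e K' k l * e K i j
  scal : ∀ x : A,
    Tendsto (fun K => S.ι (avgTo n e K x)) atTop (𝓝 (S.ι (S.τ x • (1 : A))))

/-- All the matrix units of a chain. -/
def Chain.units {S : Fac A H} (C : Chain S) : Set A := {x | ∃ K i j, x = C.e K i j}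

/-! ### Wick moments -/

/-- The moment of a word in free semicircular letters (`Sum.inl`) over letters with moment `φ`. -/
noncomputable def wick {ι B : Type} [DecidableEq ι] (φ : List B → ℂ) : ℕ → List (ι ⊕ B) → ℂ
  | 0, l => φ (l.filterMap Sum.getRight?)
  | fuel + 1, l =>
    match l.dropWhile (fun z => z.isRight) with
    | Sum.inl i :: rest =>
      ∑ k ∈ Finset.range rest.length,
        if (rest[k]? >>= Sum.getLeft?) = some i then
          wick φ fuel (rest.take k) *
            wick φ fuel (l.takeWhile (fun z => z.isRight) ++ rest.drop (k + 1))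
        else 0
    | _ => φ (l.filterMap Sum.getRight?)

/-- A finite random family is free semicircular over `F` up to degree `d` and error `η`, in mean. -/
def WickNear {ι κ : Type} [DecidableEq ι] [Fintype κ] (S : Std A H) (F : Set A)
    (g : κ → ι → A) (d : ℕ) (η : ℝ) : Prop :=
  ∀ l : List (ι ⊕ A), l.length ≤ d → (∀ x, Sum.inr x ∈ l → x ∈ F) →
    ‖(Fintype.card κ : ℂ)⁻¹ * ∑ w, S.τ (l.map (Sum.elim (g w) id)).prod -
      wick (fun m : List A => S.τ m.prod) l.length l‖ ≤ η

/-! ### Module statements -/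

/-- CARRIER: three semicircular carriers in the units of a chain, free from a finite set. -/
def CarrierSpec : Prop :=
  ∀ (A : Type) [CStarAlgebra A] (H : Type) [NormedAddCommGroup H] [InnerProductSpace ℂ H]
    (S : Fac A H) (C : Chain S) (F : Finset A) (d : ℕ) (η : ℝ), 0 < η →
    ∃ (κ : Type) (_ : Fintype κ) (_ : Nonempty κ) (g : κ → Fin 3 → A),
      (∀ w i, IsSelfAdjoint (g w i) ∧ g w i ∈ StarAlgebra.adjoin ℂ C.units) ∧
      WickNear S.toStd (F : Set A) g d η

/-- STEP: a semicircular `q` is absorbed by a small move of any unitary `v`. -/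
def StepSpec : Prop :=
  ∀ ε : ℝ, 0 < ε → ∃ (d : ℕ) (η : ℝ), 0 < η ∧
  ∀ (A : Type) [CStarAlgebra A] (H : Type) [NormedAddCommGroup H] [InnerProductSpace ℂ H]
    (S : Std A H) (v : unitary A) (q : A), Semicircular S q →
    ∀ (κ : Type) [Fintype κ] [Nonempty κ] (g : κ → Fin 3 → A),
      (∀ w i, IsSelfAdjoint (g w i)) →
      WickNear S ({(v : A), star (v : A), q} : Set A) g d η →
      ∃ (w : κ) (v' : unitary A), ‖S.ι ((v' : A) - v)‖ ≤ ε ∧
        ∃ y ∈ l2Closure S (Set.range (g w) ∪ {(v' : A)}), ‖S.ι (y - q)‖ ≤ ε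

/-- ENCODE: two generators of the first system and one more element give all units. -/
def EncodeSpec : Prop :=
  ∀ (A : Type) [CStarAlgebra A] (H : Type) [NormedAddCommGroup H] [InnerProductSpace ℂ H]
    (S : Fac A H) (C : Chain S),
    ∃ g : Fin 3 → A, C.units ⊆ l2Closure S.toStd (Set.range g)

/-- TARGET: countably many semicircular targets recover everything. -/
def TargetSpec : Prop :=
  ∀ (A : Type) [CStarAlgebra A] (H : Type) [NormedAddCommGroup H] [InnerProductSpace ℂ H]
    (S : Fac A H) (C : Chain S), S.SepTwo →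
    ∃ T : Set A, T.Countable ∧ (∀ q ∈ T, Semicircular S.toStd q) ∧
      ∀ s : Set A, C.units ⊆ l2Closure S.toStd s → T ⊆ l2Closure S.toStd s →
        ∀ x, x ∈ l2Closure S.toStd s

/-- CORE: four elements generate. -/
def CoreSpec : Prop :=
  ∀ (A : Type) [CStarAlgebra A] (H : Type) [NormedAddCommGroup H] [InnerProductSpace ℂ H]
    (S : Fac A H) (_ : Chain S), S.SepTwo →
    ∃ g : Fin 4 → A, ∀ x, x ∈ l2Closure S.toStd (Set.range g)

/-- One element generates, given a chain starting with eight by eight units. -/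
def SingleConcl : Prop :=
  ∀ (A : Type) [CStarAlgebra A] (H : Type) [NormedAddCommGroup H] [InnerProductSpace ℂ H]
    (S : Fac A H) (C : Chain S), C.n 0 = 8 → S.SepTwo →
    ∃ a : A, ∀ x, x ∈ l2Closure S.toStd {a}

/-- CORNER: four generators of corners give one generator. -/
def CornerSpec : Prop := CoreSpec → SingleConcl

/-- BRIDGE: from the abstract setting to II₁ factors on separable spaces. -/
def BridgeSpec : Prop := SingleConcl → Lit.Target

end VP085
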