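import Vale.Agent.P085.Defs

/-!
P085: all matrix units of a chain from three elements.
-/

open scoped InnerProductSpace
open Filter Topology

namespace VP085

open VP086

variable {A : Type} [CStarAlgebra A]

/-- The shift of a system of matrix units. -/
noncomputable def shift {n : ℕ} (e : Fin n → Fin n → A) : A :=
  ∑ i, ∑ j, if i.val = j.val + 1 then e i j else 0

theorem units_of_shift {n : ℕ} {e : Fin n → Fin n → A} (he : ∀ i j, star (e i j) = e j i)
    (hm : ∀ i j k l, e i j * e k l = if j = k then e i l else 0) (hs : ∑ i, e i i = 1)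
    {B : StarSubalgebra ℂ A} (hV : shift e ∈ B) (i j : Fin n) : e i j ∈ B := by
  have h0 : 0 < n := Nat.lt_of_le_of_lt (Nat.zero_le _) i.2
  set o : Fin n := ⟨0, h0⟩ with ho
  set V := shift e with hVd
  have hVe : ∀ (j : ℕ) (hj : j + 1 < n) (l : Fin n),
      V * e ⟨j, by omega⟩ l = e ⟨j + 1, hj⟩ l := by
    intro j hj l
    simp only [hVd, shift, Finset.sum_mul, ite_mul, zero_mul, hm]
    rw [Finset.sum_eq_single (⟨j + 1, hj⟩ : Fin n), Finset.sum_eq_single (⟨j, by omega⟩ : Fin n)]
    · simp
    · intro k _ hk; simp [hk]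
    · simp
    · intro k _ hk
      refine Finset.sum_eq_zero fun q _ => ?_
      by_cases hq : q = (⟨j, by omega⟩ : Fin n)
      · rw [hq, if_neg (fun hkq => hk (Fin.ext (by simpa using hkq)))]
      · simp [hq]
    · simp
  have hVV : V * star V = ∑ k ∈ Finset.univ.filter (fun k : Fin n => k.val ≠ 0), e k k := by
    have e1 : ∀ k : Fin n, k.val ≠ 0 →
        (∑ q : Fin n, if k.val = q.val + 1 then e k q else 0) =
          e k ⟨k.val - 1, by omega⟩ := fun k hk => by
      rw [Finset.sum_eq_single ⟨k.val - 1, by omega⟩]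
      · rw [if_pos (show k.val = k.val - 1 + 1 by omega)]
      · intro q _ hq
        rw [if_neg]
        intro h
        exact hq (Fin.ext (show q.val = k.val - 1 by omega))
      · simp
    have e0 : ∀ k : Fin n, k.val = 0 →
        (∑ q : Fin n, if k.val = q.val + 1 then e k q else 0) = 0 := fun k hk =>
      Finset.sum_eq_zero fun q _ => if_neg (by omega)
    simp only [hVd, shift, star_sum, Finset.sum_mul_sum]
    rw [Finset.sum_filter]
    refine Finset.sum_congr rfl fun k _ => ?_
    rw [Finset.sum_eq_single k]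
    · by_cases hk : k.val = 0
      · simp only [← star_sum, e0 k hk, if_neg (not_not.2 hk)]; simp [hk]
      · rw [← Finset.sum_mul_sum, ← star_sum, e1 k hk, if_pos hk, he, hm, if_pos rfl]
    · intro q _ hq
      rw [← Finset.sum_mul_sum, ← star_sum]
      by_cases hk : k.val = 0
      · rw [e0 k hk, zero_mul]
      · by_cases hq0 : q.val = 0
        · rw [e0 q hq0, star_zero, mul_zero]
        · rw [e1 k hk, e1 q hq0, he, hm, if_neg]
          intro h
          have := congrArg Fin.val h
          simp at this
          exact hq (Fin.ext (by omega))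
    · simp
  have hoo : e o o = 1 - V * star V := by
    rw [hVV, ← hs, ← Finset.sum_filter_add_sum_filter_not Finset.univ
      (fun k : Fin n => k.val ≠ 0), add_sub_cancel_left, Finset.sum_eq_single o]
    · intro k hk hko
      simp only [Finset.mem_filter, not_not] at hk
      exact absurd (Fin.ext hk.2) hko
    · intro h; exact absurd (Finset.mem_filter.2 ⟨Finset.mem_univ _, by simp [ho]⟩) h
  have hc : ∀ (k : ℕ) (hk : k < n), e ⟨k, hk⟩ o ∈ B := by
    intro k
    induction k with
    | zero => intro hk; exact hoo ▸ sub_mem (one_mem B) (mul_mem hV (star_mem hV))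
    | succ k ih => intro hk; rw [← hVe k hk o]; exact mul_mem hV (ih (by omega))
  have := mul_mem (hc i.1 i.2) (star_mem (hc j.1 j.2))
  rwa [he, hm, if_pos rfl] at this

variable {H : Type} [NormedAddCommGroup H] [InnerProductSpace ℂ H] {S : Fac A H} (C : Chain S)

/-- The first index. -/
def Chain.fst (K : ℕ) : Fin (C.n K) := ⟨0, by have := C.four_le K; omega⟩

/-- The second index. -/
def Chain.snd (K : ℕ) : Fin (C.n K) := ⟨1, by have := C.four_le K; omega⟩

lemma Chain.fst_ne_snd (K : ℕ) : C.fst K ≠ C.snd K := by simp [Chain.fst, Chain.snd]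

/-- The product of the first diagonal units of the first `K` systems. -/
noncomputable def Chain.nest : ℕ → A
  | 0 => 1
  | K + 1 => Chain.nest K * C.e K (C.fst K) (C.fst K)

/-- The element `y` commutes with the first `K` systems. -/
def Chain.Comm (K : ℕ) (y : A) : Prop := ∀ L < K, ∀ i j, C.e L i j * y = y * C.e L i j

lemma Chain.comm_units {K L : ℕ} (h : K ≤ L) (i j : Fin (C.n L)) : C.Comm K (C.e L i j) :=
  fun M hM a b => C.comm M L (by omega) a b i j

lemma Chain.comm_nest {K : ℕ} {y : A} (hy : C.Comm K y) : ∀ M ≤ K,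
    C.nest M * y = y * C.nest M
  | 0, _ => by simp [Chain.nest]
  | M + 1, h => by
    rw [Chain.nest, mul_assoc, hy M (by omega), ← mul_assoc, comm_nest hy M (by omega), mul_assoc]

lemma Chain.mem_of_nest {B : StarSubalgebra ℂ A} : ∀ {K : ℕ} {y : A},
    (∀ L < K, ∀ i j, C.e L i j ∈ B) → C.Comm K y → C.nest K * y ∈ B → y ∈ B
  | 0, y, _, _, h => by simpa [Chain.nest] using h
  | K + 1, y, hB, hy, h => by
    have hz : C.e K (C.fst K) (C.fst K) * y ∈ B := by
      refine mem_of_nest (K := K) (y := C.e K (C.fst K) (C.fst K) * y)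
        (fun L hL => hB L (by omega)) (fun L hL i j => ?_)
        (by simpa [Chain.nest, mul_assoc] using h)
      rw [← mul_assoc, C.comm L K (by omega), mul_assoc, hy L (by omega), ← mul_assoc]
    have e1 : y = ∑ k, C.e K k (C.fst K) * (C.e K (C.fst K) (C.fst K) * y) *
        C.e K (C.fst K) k := by
      have h : ∀ k, C.e K k (C.fst K) * (C.e K (C.fst K) (C.fst K) * y) * C.e K (C.fst K) k
          = C.e K k k * y := fun k => by
        rw [← mul_assoc, C.mul_e, if_pos rfl, mul_assoc, ← hy K (by omega), ← mul_assoc, C.mul_e,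
          if_pos rfl]
      rw [Finset.sum_congr rfl fun k _ => h k, ← Finset.sum_mul, C.sum_e, one_mul]
    rw [e1]
    exact sum_mem fun k _ =>
      mul_mem (mul_mem (hB K (by omega) k _) hz) (hB K (by omega) _ k)

/-- The element storing the shift of the next system in the slot of system `K`. -/
noncomputable def Chain.slot (K : ℕ) : A :=
  C.e K (C.snd K) (C.snd K) * shift (C.e (K + 1))

lemma Chain.comm_shift (K : ℕ) : C.Comm (K + 1) (shift (C.e (K + 1))) := fun L hL i j => by
  simp only [shift, Finset.mul_sum, Finset.sum_mul, mul_ite, ite_mul, mul_zero, zero_mul,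
    C.comm L (K + 1) (by omega) i j]

lemma Chain.comm_slot (K : ℕ) : C.Comm K (C.slot K) := fun L hL i j => by
  rw [Chain.slot, ← mul_assoc, C.comm L K hL.ne, mul_assoc, C.comm_shift K L (by omega), mul_assoc]

/-- The scalar weights making the series of slots converge in norm. -/
noncomputable def Chain.wt (K : ℕ) : ℝ := (1 / 2 : ℝ) ^ K / (1 + ‖C.nest K * C.slot K‖)

/-- All slots in one element. -/
noncomputable def Chain.store : A := ∑' K, (C.wt K : ℂ) • (C.nest K * C.slot K)

lemma Chain.summable_store : Summable fun K => (C.wt K : ℂ) • (C.nest K * C.slot K) := by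
  refine Summable.of_norm_bounded summable_geometric_two fun K => ?_
  rw [norm_smul, Complex.norm_real, Chain.wt, Real.norm_of_nonneg
    (div_nonneg (by positivity) (by positivity)), div_mul_eq_mul_div,
    div_le_iff₀ (by positivity)]
  nlinarith [norm_nonneg (C.nest K * C.slot K), show (0:ℝ) < (1 / 2) ^ K by positivity]

lemma Chain.nest_snd (K : ℕ) : ∀ L, K < L →
    C.e K (C.snd K) (C.snd K) * C.nest L = 0 := by
  intro L hL
  induction L with
  | zero => omega
  | succ L ih =>
    rw [Chain.nest]
    rcases (Nat.lt_succ_iff_lt_or_eq.1 hL) with h | h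
    · rw [← mul_assoc, ih h, zero_mul]
    · subst h
      rw [← mul_assoc, ← C.comm_nest (C.comm_units le_rfl _ _) K le_rfl, mul_assoc, C.mul_e,
        if_neg (C.fst_ne_snd K).symm, mul_zero]

lemma Chain.nest_mul_slot {K L : ℕ} (h : L < K) : C.nest K * (C.nest L * C.slot L) = 0 := by
  have : C.nest K * C.e L (C.snd L) (C.snd L) = 0 := by
    induction K with
    | zero => omega
    | succ K ih =>
      rw [Chain.nest, mul_assoc]
      rcases (Nat.lt_succ_iff_lt_or_eq.1 h) with h' | h'
      · rw [C.comm K L h'.ne', ← mul_assoc, ih h', zero_mul]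
      · subst h'; rw [C.mul_e, if_neg (C.fst_ne_snd _), mul_zero]
  rw [Chain.slot, ← mul_assoc (C.nest L), C.comm_nest (C.comm_units le_rfl _ _) L le_rfl]
  simp only [← mul_assoc, this, zero_mul]

lemma Chain.nest_idem : ∀ K, C.nest K * C.nest K = C.nest K
  | 0 => by simp [Chain.nest]
  | K + 1 => by
    rw [Chain.nest, mul_assoc, ← mul_assoc (C.e K (C.fst K) (C.fst K)),
      ← C.comm_nest (C.comm_units le_rfl _ _) K le_rfl, mul_assoc, C.mul_e, if_pos rfl,
      ← mul_assoc, nest_idem K]

lemma Chain.nest_mem {B : StarSubalgebra ℂ A} : ∀ {K : ℕ},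
    (∀ L < K, ∀ i j, C.e L i j ∈ B) → C.nest K ∈ B
  | 0, _ => one_mem B
  | K + 1, h => mul_mem (nest_mem fun L hL => h L (by omega)) (h K (by omega) _ _)

lemma Chain.extract (K : ℕ) :
    C.nest K * C.e K (C.snd K) (C.snd K) * C.store =
      (C.wt K : ℂ) • (C.nest K * C.slot K) := by
  rw [Chain.store, ← C.summable_store.tsum_mul_left]
  rw [tsum_eq_single K]
  · rw [mul_smul_comm, ← mul_assoc, mul_assoc (C.nest K) _ (C.nest K),
      ← C.comm_nest (C.comm_units le_rfl _ _) K le_rfl, ← mul_assoc, C.nest_idem, mul_assoc,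
      Chain.slot, ← mul_assoc (C.e K _ _), C.mul_e, if_pos rfl]
  · intro L hL
    rw [mul_smul_comm]
    rcases lt_or_gt_of_ne hL with h | h
    · rw [C.comm_nest (C.comm_units le_rfl _ _) K le_rfl, mul_assoc, C.nest_mul_slot h, mul_zero,
        smul_zero]
    · rw [mul_assoc, ← mul_assoc (C.e K _ _), C.nest_snd K L h, zero_mul, mul_zero, smul_zero]

/-- ENCODE: three elements generate all units of a chain. -/
theorem encodeSpec : EncodeSpec := by
  intro A _ H _ _ S C
  refine ⟨![shift (C.e 0), C.store, 0], ?_⟩
  set B := l2Closure S.toStd (Set.range ![shift (C.e 0), C.store, 0])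
  have hg : ∀ i, (![shift (C.e 0), C.store, 0] : Fin 3 → A) i ∈ B := fun i =>
    adjoin_le_l2Closure _ _ (StarAlgebra.subset_adjoin ℂ _ ⟨i, rfl⟩)
  have all : ∀ K, ∀ L < K, ∀ i j, C.e L i j ∈ B := by
    intro K
    induction K with
    | zero => intro L hL; omega
    | succ K ih =>
      intro L hL
      rcases Nat.lt_succ_iff_lt_or_eq.1 hL with h | h
      · exact ih L h
      subst h
      intro i j
      refine units_of_shift (C.star_e L) (C.mul_e L) (C.sum_e L) ?_ i j
      cases L with
      | zero => exact hg 0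
      | succ L =>
        have hL' : ∀ M < L + 1, ∀ i j, C.e M i j ∈ B := ih
        have h1 : C.nest L * C.slot L ∈ B := by
          have h := SMulMemClass.smul_mem ((C.wt L : ℂ)⁻¹) (mul_mem (mul_mem
            (C.nest_mem (K := L) fun M hM => hL' M (by omega)) (hL' L (by omega) (C.snd L) (C.snd L)))
            (hg 1))
          have hw : C.wt L ≠ 0 := (div_pos (by positivity) (by positivity)).ne'
          rwa [show (![shift (C.e 0), C.store, 0] : Fin 3 → A) 1 = C.store from rfl, C.extract,
            smul_smul, inv_mul_cancel₀ (by exact_mod_cast hw), one_smul] at h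
        have h2 : C.slot L ∈ B := C.mem_of_nest (fun M hM => hL' M (by omega)) (C.comm_slot L) h1
        have e1 : shift (C.e (L + 1)) = ∑ k, C.e L k (C.snd L) * C.slot L * C.e L (C.snd L) k := by
          have h : ∀ k, C.e L k (C.snd L) * C.slot L * C.e L (C.snd L) k
              = C.e L k k * shift (C.e (L + 1)) := fun k => by
            rw [Chain.slot, ← mul_assoc, C.mul_e, if_pos rfl, mul_assoc,
              ← C.comm_shift L L (by omega), ← mul_assoc, C.mul_e, if_pos rfl]
          rw [Finset.sum_congr rfl fun k _ => h k, ← Finset.sum_mul, C.sum_e, one_mul]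
        rw [e1]
        exact sum_mem fun k _ => mul_mem (mul_mem (hL' L (by omega) k _) h2) (hL' L (by omega) _ k)
  rintro x ⟨K, i, j, rfl⟩
  exact all (K + 1) K (by omega) i j

end VP085
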